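import Vale.Agent.Lib.P174.Defs

namespace Vale.Agent.Lib.P174

open Monoid

universe u

variable {G : Type u} [Group G] {n : ℕ}

/-- Induction principle for `G * F_n`. -/
theorem coprod_induction {C : Coprod G (FreeGroup (Fin n)) → Prop}
    (hinl : ∀ g, C (Coprod.inl g))
    (hof : ∀ j, C (Coprod.inr (FreeGroup.of j)))
    (hmul : ∀ u v, C u → C v → C (u * v))
    (hinv : ∀ u, C u → C u⁻¹) : ∀ u, C u := by
  intro u
  induction u using Coprod.induction_on with
  | inl g => exact hinl g
  | inr x =>
    induction x using FreeGroup.induction_on with
    | C1 => simpa using hinl 1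
    | of j => exact hof j
    | inv_of j _ =>
      rw [map_inv]
      exact hinv _ (hof j)
    | mul a b ha hb =>
      rw [map_mul]
      exact hmul _ _ ha hb
  | mul a b ha hb => exact hmul _ _ ha hb

@[simp] theorem expHom_inl (g : G) :
    expHom G n (Coprod.inl g) = 1 := by
  simp [expHom]

@[simp] theorem expHom_of (j : Fin n) :
    expHom G n (Coprod.inr (FreeGroup.of j)) = Multiplicative.ofAdd (Pi.single j 1) := by
  simp [expHom]

/-- The exponent vector does not change when the coefficients are pushed forward. -/
theorem expHom_map {H : Type u} [Group H] (f : G →* H) (u : Coprod G (FreeGroup (Fin n))) :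
    expHom H n (Coprod.map f (MonoidHom.id _) u) = expHom G n u := by
  induction u using coprod_induction with
  | hinl g => simp
  | hof j => simp
  | hmul a b ha hb => simp [ha, hb]
  | hinv a ha => simp [ha]

theorem expMatrix_map {H : Type u} [Group H] (f : G →* H) {m : ℕ}
    (w : Fin m → Coprod G (FreeGroup (Fin n))) :
    expMatrix (fun i => Coprod.map f (MonoidHom.id _) (w i)) = expMatrix w := by
  ext i j
  simp [expMatrix, expHom_map]

end Vale.Agent.Lib.P174
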