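import Vale.Agent.Lib.P174.Main

namespace Vale.Agent.Lib.P174

open Monoid

universe u

section FinalStep

variable {G P : Type u} [Group G] [Group P]

/-- A homomorphism of the big coefficient group that kills the relators of the big system
and is injective on the kernel of `π` gives solvability of the original system. -/
theorem solvable_of_hom {K : Type u} [Group K] (π : G →* P) (ρ : P → G)
    (hρ : ∀ g y, π (ρ (π g * y)) = π g * π (ρ y)) {m n : ℕ} (q : Fin n → P)
    (w : Fin m → Coprod G (FreeGroup (Fin n)))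
    (hbar : ∀ i, bar π q (w i) = 1)
    (θ : Coprod π.ker (FreeGroup (Fin n × P)) →* K)
    (hθ : ∀ i y, θ (vBig π ρ hρ q (w i) y) = 1)
    (hinj : ∀ a₀ : π.ker, θ (Coprod.inl a₀) = 1 → a₀ = 1) :
    SolvableSystem w := by
  intro g hg
  have hV : ∀ u y, θ (vBig π ρ hρ q u y) = Ventry π (sectionCocycle π ρ hρ (θ.comp Coprod.inl))
      (fun j y => θ (eBig π j y)) q u y := by
    intro u y
    exact Ventry_transfer π (sectionCocycle π ρ hρ Coprod.inl) (eBig π) q π
      (sectionCocycle π ρ hρ (θ.comp Coprod.inl)) (fun j y => θ (eBig π j y)) q id θ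
      (fun _ _ => rfl) (fun _ _ => rfl) (fun _ _ => rfl) (fun _ _ => rfl) u y
  have hker : Set.range w ⊆ ((Psi π (sectionCocycle π ρ hρ (θ.comp Coprod.inl))
      (fun j y => θ (eBig π j y)) q).ker : Set _) := by
    rintro _ ⟨i, rfl⟩
    change Psi π _ _ q (w i) = 1
    ext1 x
    obtain ⟨y, k⟩ := x
    rw [Psi_apply, hbar, ← hV, hθ]
    simp
  have hle := Subgroup.normalClosure_le_normal hker
  have hg1 : Psi π (sectionCocycle π ρ hρ (θ.comp Coprod.inl))
      (fun j y => θ (eBig π j y)) q (Coprod.inl g) = 1 := hle hg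
  have hg2 := congrArg (fun φ : Equiv.Perm (P × K) => φ (1, 1)) hg1
  simp only [Psi_inl, mul_one, Equiv.Perm.coe_one, id_eq, Prod.mk.injEq] at hg2
  obtain ⟨hg3, hg4⟩ := hg2
  have hg5 := hinj _ hg4
  have hg6 := congrArg Subtype.val hg5
  simp only [OneMemClass.coe_one, mul_one, hg3] at hg6
  have h7 : g * ρ 1 = ρ 1 := by
    have h8 : (ρ 1)⁻¹ * (g * ρ 1) = 1 := by
      rw [← mul_assoc]
      exact hg6
    rw [inv_mul_eq_one] at h8
    exact h8.symm
  simpa using h7

/-- If the relators of the big system meet the kernel of `π` trivially, the original system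
is solvable. -/
theorem solvable_of_big_inj (π : G →* P) (ρ : P → G)
    (hρ : ∀ g y, π (ρ (π g * y)) = π g * π (ρ y)) {m n : ℕ} (q : Fin n → P)
    (w : Fin m → Coprod G (FreeGroup (Fin n)))
    (hbar : ∀ i, bar π q (w i) = 1)
    (hinj : ∀ a₀ : π.ker, (Coprod.inl a₀ : Coprod π.ker (FreeGroup (Fin n × P))) ∈
      Subgroup.normalClosure (Set.range fun x : Fin m × P => vBig π ρ hρ q (w x.1) x.2) → a₀ = 1) :
    SolvableSystem w := by
  refine solvable_of_hom π ρ hρ q w hbar (QuotientGroup.mk' (Subgroup.normalClosure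
    (Set.range fun x : Fin m × P => vBig π ρ hρ q (w x.1) x.2))) ?_ ?_
  · intro i y
    rw [QuotientGroup.mk'_apply, QuotientGroup.eq_one_iff]
    apply Subgroup.subset_normalClosure
    exact ⟨(i, y), rfl⟩
  · intro a₀ h
    apply hinj
    rwa [QuotientGroup.mk'_apply, QuotientGroup.eq_one_iff] at h

end FinalStep

section Family

variable (p : ℕ) [Fact p.Prime] {G : Type u} [Group G] {A : Type u} {Q : A → Type u}
  [∀ a, Group (Q a)]

omit [Fact p.Prime] in
/-- Finite products of `p`-groups are `p`-groups. -/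
theorem isPGroup_pi_finset (hQ : ∀ a, IsPGroup p (Q a)) (A₀ : Finset A) :
    IsPGroup p ((a : A₀) → Q a.1) := by
  classical
  intro x
  choose k hk using fun a : A₀ => hQ a.1 (x a)
  refine ⟨A₀.attach.sup k, ?_⟩
  funext a
  have hle : k a ≤ A₀.attach.sup k := Finset.le_sup (Finset.mem_attach _ a)
  obtain ⟨d, hd⟩ := Nat.exists_eq_add_of_le hle
  simp only [Pi.pow_apply, Pi.one_apply]
  rw [hd, pow_add, pow_mul, hk a, one_pow]

/-- Finitely many points of a product are separated by finitely many coordinates. -/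
theorem exists_separating_finset (T : Finset ((a : A) → Q a)) :
    ∃ A₀ : Finset A, ∀ y ∈ T, ∀ y' ∈ T, (∀ a ∈ A₀, y a = y' a) → y = y' := by
  classical
  have h : ∀ z : ((a : A) → Q a) × ((a : A) → Q a), z.1 ≠ z.2 → ∃ a : A, z.1 a ≠ z.2 a :=
    fun z hz => Function.ne_iff.mp hz
  choose a ha using h
  refine ⟨(T ×ˢ T).biUnion fun z => if h : z.1 ≠ z.2 then {a z h} else ∅, ?_⟩
  intro y hy y' hy' hag
  by_contra hne
  apply ha (y, y') hne
  apply hag
  refine Finset.mem_biUnion.mpr ⟨(y, y'), Finset.mem_product.mpr ⟨hy, hy'⟩, ?_⟩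
  simp [hne]

/-- The evaluation of `bar` at a coordinate. -/
theorem bar_pi_apply (f : ∀ a, G →* Q a) {n : ℕ} (q : Fin n → (a : A) → Q a)
    (u : Coprod G (FreeGroup (Fin n))) (a : A) :
    bar (MonoidHom.pi f) q u a = evalAt (fun j => q j a) (Coprod.map (f a) (MonoidHom.id _) u) := by
  induction u using coprod_induction with
  | hinl g =>
    simp only [bar_inl, Coprod.map_apply_inl, evalAt_inl]
    rfl
  | hof j => simp
  | hmul x y hx hy => simp only [map_mul, Pi.mul_apply, hx, hy]
  | hinv x hx => simp only [map_inv, Pi.inv_apply, hx]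

variable [∀ a, Finite (Q a)]

/-- The relators of the big system generate a normal subgroup that meets the kernel of `π`
trivially. -/
theorem big_inj (hQ : ∀ a, IsPGroup p (Q a)) (f : ∀ a, G →* Q a)
    (hN : HowieModP p (MonoidHom.pi f).ker)
    (ρ : ((a : A) → Q a) → G)
    (hρ : ∀ g y, MonoidHom.pi f (ρ (MonoidHom.pi f g * y)) =
      MonoidHom.pi f g * MonoidHom.pi f (ρ y))
    {m n : ℕ} (q : Fin n → (a : A) → Q a)
    (w : Fin m → Coprod G (FreeGroup (Fin n)))
    (hrank : ((expMatrix w).map (Int.cast : ℤ → ZMod p)).rank = m)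
    (a₀ : (MonoidHom.pi f).ker)
    (ha : (Coprod.inl a₀ : Coprod (MonoidHom.pi f).ker (FreeGroup (Fin n × ((a : A) → Q a)))) ∈
      Subgroup.normalClosure (Set.range fun x : Fin m × ((a : A) → Q a) =>
        vBig (MonoidHom.pi f) ρ hρ q (w x.1) x.2)) : a₀ = 1 := by
  classical
  obtain ⟨F, hF⟩ := exists_finset_of_mem_normalClosure _ ha
  obtain ⟨A₀, hA₀⟩ := exists_separating_finset (F.image Prod.snd)
  let Q₀ := (a : A₀) → Q a.1
  let f₀ : ((a : A) → Q a) →* Q₀ := MonoidHom.pi fun a : A₀ => Pi.evalMonoidHom Q a.1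
  have : Finite Q₀ := Pi.finite
  let _ : Fintype Q₀ := Fintype.ofFinite Q₀
  have hinj : Set.InjOn (fun x : Fin m × ((a : A) → Q a) => (x.1, f₀ x.2)) (F : Set _) := by
    intro x hx y hy hxy
    simp only [Prod.mk.injEq] at hxy
    apply Prod.ext hxy.1
    apply hA₀ _ (Finset.mem_image_of_mem _ hx) _ (Finset.mem_image_of_mem _ hy)
    intro a ha
    exact congrFun hxy.2 ⟨a, ha⟩
  let α := F.equivFin
  let β := Fintype.equivFin (Fin n × Q₀)
  have hsolv := hN _ _ _ (big_rank p (MonoidHom.pi f) ρ hρ q f₀ β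
    (isPGroup_pi_finset p hQ A₀) w hrank F hinj α)
  apply hsolv
  have hle : Subgroup.normalClosure ((fun x : Fin m × ((a : A) → Q a) =>
      vBig (MonoidHom.pi f) ρ hρ q (w x.1) x.2) '' (F : Set _)) ≤
      (Subgroup.normalClosure (Set.range fun r : Fin F.card =>
        collapse (MonoidHom.pi f) f₀ β (vBig (MonoidHom.pi f) ρ hρ q
          (w (α.symm r).1.1) (α.symm r).1.2))).comap
        (collapse (MonoidHom.pi f) f₀ β) := by
    apply Subgroup.normalClosure_le_normal
    rintro _ ⟨x, hx, rfl⟩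
    apply Subgroup.subset_normalClosure
    refine ⟨α ⟨x, hx⟩, ?_⟩
    simp
  have h1 := hle hF
  rw [Subgroup.mem_comap, collapse_inl] at h1
  exact h1

/-- The closure theorem for a family of homomorphisms to finite `p`-groups. -/
theorem howieModP_of_family (hQ : ∀ a, IsPGroup p (Q a)) (f : ∀ a, G →* Q a)
    (hN : HowieModP p (MonoidHom.pi f).ker) : HowieModP p G := by
  classical
  intro m n w hrank
  obtain ⟨qa, hqa⟩ : ∃ qa : (a : A) → Fin n → Q a,
      ∀ a i, evalAt (qa a) (Coprod.map (f a) (MonoidHom.id _) (w i)) = 1 := by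
    have h : ∀ a : A, ∃ qa : Fin n → Q a,
        ∀ i, evalAt qa (Coprod.map (f a) (MonoidHom.id _) (w i)) = 1 := fun a =>
      pgroup_solve p (expMatrix w) hrank (Nat.card (Q a)) (Q a) rfl (hQ a)
        (fun i => Coprod.map (f a) (MonoidHom.id _) (w i)) (expMatrix_map (f a) w)
    choose qa hqa using h
    exact ⟨qa, hqa⟩
  let q : Fin n → (a : A) → Q a := fun j a => qa a j
  have hbar : ∀ i, bar (MonoidHom.pi f) q (w i) = 1 := by
    intro i
    funext a
    exact (bar_pi_apply f q (w i) a).trans (hqa a i)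
  obtain ⟨ρ, hρ⟩ := exists_section (MonoidHom.pi f)
  exact solvable_of_big_inj (MonoidHom.pi f) ρ hρ q w hbar
    (fun a₀ ha => big_inj p hQ f hN ρ hρ q w hrank a₀ ha)

end Family

end Vale.Agent.Lib.P174
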