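import Vale.Agent.Lib.P174.Basic

namespace Vale.Agent.Lib.P174

open Monoid

universe u

/-- Full row rank means that the rows are independent. -/
theorem rows_indep_of_rank {F : Type*} [Field F] {m n : ℕ}
    (A : Matrix (Fin m) (Fin n) F) (h : A.rank = m) :
    ∀ g : Fin m → F, (∀ j, ∑ i, g i * A i j = 0) → g = 0 := by
  have hli : LinearIndependent F A.row := by
    rw [linearIndependent_iff_card_eq_finrank_span, Fintype.card_fin]
    exact h.symm.trans A.rank_eq_finrank_span_row
  intro g hg
  rw [Fintype.linearIndependent_iff] at hli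
  funext i
  refine hli g ?_ i
  funext j
  simpa using hg j

/-- The key step: twisted rows are independent for a `p`-group, by a fixed point argument. -/
theorem twisted_rows_indep (p : ℕ) [Fact p.Prime] {P : Type u} [Group P] [Fintype P]
    (hP : IsPGroup p P) {m n : ℕ} (E : Fin m → P → (Fin n × P → ZMod p))
    (B : Matrix (Fin m) (Fin n) (ZMod p))
    (heqv : ∀ i y s j t, E i (y * s) (j, t) = E i y (j, t * s⁻¹))
    (hsum : ∀ i y j, ∑ t, E i y (j, t) = B i j)
    (hrank : B.rank = m)
    (l : Fin m × P → ZMod p) (hl : ∀ c, ∑ x, l x * E x.1 x.2 c = 0) : l = 0 := by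
  classical
  by_contra hne
  -- the space of relations
  let W : Submodule (ZMod p) (Fin m × P → ZMod p) :=
    { carrier := {l | ∀ c, ∑ x, l x * E x.1 x.2 c = 0}
      add_mem' := by
        intro a b ha hb c
        simp only [Pi.add_apply, add_mul, Finset.sum_add_distrib]
        rw [ha c, hb c, add_zero]
      zero_mem' := by
        intro c
        simp
      smul_mem' := by
        intro r a ha c
        simp only [Pi.smul_apply, smul_eq_mul, mul_assoc]
        rw [← Finset.mul_sum, ha c, mul_zero] }
  have hstable : ∀ (s : P) (a : Fin m × P → ZMod p), a ∈ W →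
      (fun x : Fin m × P => a (x.1, x.2 * s)) ∈ W := by
    intro s a ha c
    obtain ⟨j, t⟩ := c
    have h1 := ha (j, t * s)
    let f : Fin m × P ≃ Fin m × P := Equiv.prodCongr (Equiv.refl _) (Equiv.mulRight s)
    rw [← Equiv.sum_comp f] at h1
    rw [← h1]
    refine Finset.sum_congr rfl fun x _ => ?_
    have h2 := heqv x.1 x.2 s j (t * s)
    simp only [f, Equiv.prodCongr_apply, Prod.map, Equiv.coe_refl, id, Equiv.coe_mulRight]
    rw [h2]
    simp
  let act : MulAction P W :=
    { smul := fun s a => ⟨fun x => a.1 (x.1, x.2 * s), hstable s a.1 a.2⟩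
      one_smul := by
        intro a
        apply Subtype.ext
        funext x
        change a.1 (x.1, x.2 * 1) = a.1 x
        simp
      mul_smul := by
        intro s t a
        apply Subtype.ext
        funext x
        change a.1 (x.1, x.2 * (s * t)) = a.1 (x.1, x.2 * s * t)
        rw [mul_assoc] }
  have hsmul : ∀ (s : P) (a : W) (x : Fin m × P), (s • a).1 x = a.1 (x.1, x.2 * s) :=
    fun _ _ _ => rfl
  have hnt : Nontrivial W := by
    refine ⟨⟨⟨l, hl⟩, 0, ?_⟩⟩
    intro h
    exact hne (congrArg Subtype.val h)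
  have hdvd : p ∣ Nat.card W := by
    rw [Module.natCard_eq_pow_finrank (K := ZMod p), Nat.card_zmod]
    exact dvd_pow_self p (Module.finrank_pos (R := ZMod p) (M := W)).ne'
  have h0 : (0 : W) ∈ MulAction.fixedPoints P W := by
    intro s
    apply Subtype.ext
    funext x
    rw [hsmul]
    rfl
  obtain ⟨b, hbfix, hb0⟩ := hP.exists_fixed_point_of_prime_dvd_card_of_fixed_point W hdvd h0
  -- a fixed relation is constant along `P`
  have hconst : ∀ i y, b.1 (i, y) = b.1 (i, 1) := by
    intro i y
    have h1 := hbfix y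
    have h2 := hsmul y b (i, 1)
    rw [h1] at h2
    simpa using h2.symm
  have hμ : (fun i => b.1 (i, 1)) = 0 := by
    apply rows_indep_of_rank B hrank
    intro j
    have h1 := b.2 (j, 1)
    have h2 : ∑ x : Fin m × P, b.1 x * E x.1 x.2 (j, 1) =
        ∑ i, b.1 (i, 1) * ∑ y, E i y (j, 1) := by
      rw [Fintype.sum_prod_type]
      refine Finset.sum_congr rfl fun i _ => ?_
      rw [Finset.mul_sum]
      refine Finset.sum_congr rfl fun y _ => ?_
      rw [hconst]
    rw [h2] at h1
    rw [← h1]
    refine Finset.sum_congr rfl fun i _ => ?_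
    rw [← hsum i 1 j]
    congr 1
    rw [← Equiv.sum_comp (Equiv.inv P)]
    refine Finset.sum_congr rfl fun y _ => ?_
    have h3 := heqv i 1 y j 1
    rw [one_mul, one_mul] at h3
    simpa using h3.symm
  apply hb0
  apply Eq.symm
  apply Subtype.ext
  funext x
  obtain ⟨i, y⟩ := x
  rw [hconst]
  exact congrFun hμ i

end Vale.Agent.Lib.P174
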