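import Mathlib

/-!
# Systems of equations over groups: basic definitions

A finite system over `G` in `n` unknowns is a family of elements of the free product
`Monoid.Coprod G (FreeGroup (Fin n))`.
-/

namespace Vale.Agent.Lib.P174

open Monoid

universe u

/-- The exponent-sum homomorphism `G * F_n → ℤ^n`: it kills `G` and sends `x_j` to `e_j`. -/
noncomputable def expHom (G : Type u) [Group G] (n : ℕ) :
    Coprod G (FreeGroup (Fin n)) →* Multiplicative (Fin n → ℤ) :=
  Coprod.lift 1 (FreeGroup.lift fun j => Multiplicative.ofAdd (Pi.single j 1))

/-- The exponent-sum matrix of a system. -/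
noncomputable def expMatrix {G : Type u} [Group G] {m n : ℕ}
    (w : Fin m → Coprod G (FreeGroup (Fin n))) : Matrix (Fin m) (Fin n) ℤ :=
  fun i j => Multiplicative.toAdd (expHom G n (w i)) j

/-- A system is solvable over `G` when `G` embeds in the quotient of `G * F_n` by the
normal closure of the system, that is, when no nontrivial element of `G` lies in that
normal closure. -/
def SolvableSystem {G : Type u} [Group G] {m n : ℕ}
    (w : Fin m → Coprod G (FreeGroup (Fin n))) : Prop :=
  ∀ g : G, (Coprod.inl g : Coprod G (FreeGroup (Fin n))) ∈
    Subgroup.normalClosure (Set.range w) → g = 1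

/-- Howie's property of a group: every finite system whose exponent-sum matrix has rank
equal to the number of equations over `ℚ` is solvable. -/
def HowieProperty (G : Type u) [Group G] : Prop :=
  ∀ (m n : ℕ) (w : Fin m → Coprod G (FreeGroup (Fin n))),
    ((expMatrix w).map (Int.cast : ℤ → ℚ)).rank = m → SolvableSystem w

/-- The mod `p` version: every finite system whose exponent-sum matrix has rank equal to
the number of equations over `ZMod p` is solvable. -/
def HowieModP (p : ℕ) [Fact p.Prime] (G : Type u) [Group G] : Prop :=
  ∀ (m n : ℕ) (w : Fin m → Coprod G (FreeGroup (Fin n))),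
    ((expMatrix w).map (Int.cast : ℤ → ZMod p)).rank = m → SolvableSystem w

/-- `Q` is residually a finite `p`-group: every nontrivial element survives in a quotient
of `Q` that is a finite `p`-group. -/
def ResiduallyFinitePGroup (p : ℕ) (Q : Type u) [Group Q] : Prop :=
  ∀ x : Q, x ≠ 1 → ∃ M : Subgroup Q, ∃ _ : M.Normal, Finite (Q ⧸ M) ∧ IsPGroup p (Q ⧸ M) ∧ x ∉ M

end Vale.Agent.Lib.P174
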