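import Vale.Agent.Lib.P174.Closure

namespace Vale.Agent.Lib.P174

open Monoid

universe u

section Residual

variable (p : ℕ) [Fact p.Prime] {G : Type u} [Group G]

/-- The closure theorem: extensions by residually finite `p`-groups. -/
theorem howieModP_of_residually (N : Subgroup G) [N.Normal]
    (hR : ResiduallyFinitePGroup p (G ⧸ N)) (hN : HowieModP p N) : HowieModP p G := by
  classical
  let A := {M : Subgroup (G ⧸ N) // ∃ _ : M.Normal, Finite ((G ⧸ N) ⧸ M) ∧ IsPGroup p ((G ⧸ N) ⧸ M)}
  have inst1 : ∀ a : A, a.1.Normal := fun a => a.2.choose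
  have inst2 : ∀ a : A, Finite ((G ⧸ N) ⧸ a.1) := fun a => a.2.choose_spec.1
  have hQ : ∀ a : A, IsPGroup p ((G ⧸ N) ⧸ a.1) := fun a => a.2.choose_spec.2
  let f : ∀ a : A, G →* ((G ⧸ N) ⧸ a.1) := fun a =>
    (QuotientGroup.mk' a.1).comp (QuotientGroup.mk' N)
  have hker : (MonoidHom.pi f).ker = N := by
    ext g
    rw [MonoidHom.mem_ker]
    constructor
    · intro h
      by_contra hg
      have hne : (QuotientGroup.mk' N g) ≠ 1 := by
        intro h1
        exact hg ((QuotientGroup.eq_one_iff g).mp h1)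
      obtain ⟨M, hM, hfin, hp, hx⟩ := hR _ hne
      have h2 := congrFun h ⟨M, hM, hfin, hp⟩
      apply hx
      exact (QuotientGroup.eq_one_iff _).mp h2
    · intro hg
      funext a
      have h1 : QuotientGroup.mk' N g = 1 := (QuotientGroup.eq_one_iff g).mpr hg
      change QuotientGroup.mk' a.1 (QuotientGroup.mk' N g) = 1
      rw [h1, map_one]
  have hN' : HowieModP p (MonoidHom.pi f).ker := by
    rw [hker]
    exact hN
  exact howieModP_of_family p hQ f hN'

end Residual

section Rank

/-- Full rank of a square matrix gives nonzero determinant. -/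
theorem det_ne_zero_of_rank {F : Type*} [Field F] {m : ℕ} (M : Matrix (Fin m) (Fin m) F)
    (h : M.rank = m) : M.det ≠ 0 := by
  choose y hy using fun i => exists_mulVec_eq_of_rank M h (Pi.single i 1)
  let B : Matrix (Fin m) (Fin m) F := fun j i => y i j
  have hB : M * B = 1 := by
    ext i k
    have h1 := congrFun (hy k) i
    simp only [Matrix.mulVec, dotProduct] at h1
    rw [Matrix.mul_apply, Matrix.one_apply]
    refine Eq.trans h1 ?_
    by_cases hik : i = k <;> simp [hik]
  intro h0
  have h2 := congrArg Matrix.det hB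
  rw [Matrix.det_mul, h0, zero_mul, Matrix.det_one] at h2
  exact zero_ne_one h2

theorem map_cast_mul {R : Type*} [Ring R] {a b c : ℕ} (L : Matrix (Fin a) (Fin b) ℤ)
    (M : Matrix (Fin b) (Fin c) ℤ) :
    (L.map (Int.cast : ℤ → R)) * (M.map (Int.cast : ℤ → R)) =
      (L * M).map (Int.cast : ℤ → R) := by
  ext i k
  simp [Matrix.mul_apply]

/-- Full row rank mod `p` implies full row rank over `ℚ`. -/
theorem rank_rat_of_rank_zmod (p : ℕ) [Fact p.Prime] {m n : ℕ} (A : Matrix (Fin m) (Fin n) ℤ)
    (h : (A.map (Int.cast : ℤ → ZMod p)).rank = m) : (A.map (Int.cast : ℤ → ℚ)).rank = m := by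
  choose y hy using fun i => exists_mulVec_eq_of_rank _ h (Pi.single i 1)
  let B : Matrix (Fin n) (Fin m) ℤ := fun j i => ((y i j).val : ℤ)
  let Y : Matrix (Fin n) (Fin m) (ZMod p) := fun j i => y i j
  have hBm : B.map (Int.cast : ℤ → ZMod p) = Y := by
    ext j i
    change (((y i j).val : ℤ) : ZMod p) = y i j
    simp
  have hB : (A * B).map (Int.cast : ℤ → ZMod p) = 1 := by
    rw [← map_cast_mul, hBm]
    ext i k
    have h1 := congrFun (hy k) i
    simp only [Matrix.mulVec, dotProduct] at h1
    rw [Matrix.mul_apply, Matrix.one_apply]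
    refine Eq.trans h1 ?_
    by_cases hik : i = k <;> simp [hik]
  have hdet : (A * B).det ≠ 0 := by
    intro h0
    have h2 : ((A * B).det : ZMod p) = ((A * B).map (Int.cast : ℤ → ZMod p)).det := by
      simpa using (Int.castRingHom (ZMod p)).map_det (A * B)
    rw [h0, hB, Matrix.det_one] at h2
    simp at h2
  have hq : (A.map (Int.cast : ℤ → ℚ)) * (B.map (Int.cast : ℤ → ℚ)) =
      (A * B).map (Int.cast : ℤ → ℚ) := map_cast_mul A B
  have hdetq : ((A * B).map (Int.cast : ℤ → ℚ)).det ≠ 0 := by
    have h2 : ((A * B).det : ℚ) = ((A * B).map (Int.cast : ℤ → ℚ)).det := by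
      simpa using (Int.castRingHom ℚ).map_det (A * B)
    rw [← h2]
    exact_mod_cast hdet
  have hunit : IsUnit ((A * B).map (Int.cast : ℤ → ℚ)) :=
    (Matrix.isUnit_iff_isUnit_det _).mpr hdetq.isUnit
  have hr := Matrix.rank_of_isUnit _ hunit
  rw [Fintype.card_fin, ← hq] at hr
  exact le_antisymm (Matrix.rank_le_height _) (hr.symm.le.trans (Matrix.rank_mul_le_left _ _))

/-- Full row rank over `ℚ` implies full row rank mod `p` for almost all primes. -/
theorem exists_det_of_rank_rat {m n : ℕ} (A : Matrix (Fin m) (Fin n) ℤ)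
    (h : (A.map (Int.cast : ℤ → ℚ)).rank = m) :
    ∃ D : ℤ, D ≠ 0 ∧ ∀ (p : ℕ) [Fact p.Prime], ¬ (p : ℤ) ∣ D →
      (A.map (Int.cast : ℤ → ZMod p)).rank = m := by
  refine ⟨(A * A.transpose).det, ?_, ?_⟩
  · intro h0
    have h1 : (A.map (Int.cast : ℤ → ℚ)) * (A.map (Int.cast : ℤ → ℚ)).transpose =
        (A * A.transpose).map (Int.cast : ℤ → ℚ) := by
      rw [← map_cast_mul, Matrix.transpose_map]
    have h2 : ((A * A.transpose).map (Int.cast : ℤ → ℚ)).rank = m := by
      rw [← h1, Matrix.rank_self_mul_transpose, h]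
    have h3 := det_ne_zero_of_rank _ h2
    apply h3
    have h4 : (((A * A.transpose).det : ℤ) : ℚ) = ((A * A.transpose).map (Int.cast : ℤ → ℚ)).det := by
      simpa using (Int.castRingHom ℚ).map_det (A * A.transpose)
    rw [← h4, h0]
    simp
  · intro p _ hp
    have h1 : (A.map (Int.cast : ℤ → ZMod p)) * (A.map (Int.cast : ℤ → ZMod p)).transpose =
        (A * A.transpose).map (Int.cast : ℤ → ZMod p) := by
      rw [← map_cast_mul, Matrix.transpose_map]
    have h4 : (((A * A.transpose).det : ℤ) : ZMod p) =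
        ((A * A.transpose).map (Int.cast : ℤ → ZMod p)).det := by
      simpa using (Int.castRingHom (ZMod p)).map_det (A * A.transpose)
    have h5 : ((A * A.transpose).map (Int.cast : ℤ → ZMod p)).det ≠ 0 := by
      rw [← h4]
      intro h6
      exact hp ((ZMod.intCast_zmod_eq_zero_iff_dvd _ p).mp h6)
    have hunit : IsUnit ((A * A.transpose).map (Int.cast : ℤ → ZMod p)) :=
      (Matrix.isUnit_iff_isUnit_det _).mpr h5.isUnit
    have hr := Matrix.rank_of_isUnit _ hunit
    rw [Fintype.card_fin, ← h1] at hr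
    exact le_antisymm (Matrix.rank_le_height _) (hr.symm.le.trans (Matrix.rank_mul_le_left _ _))

end Rank

section Consequences

variable {G : Type u} [Group G]

theorem howieModP_of_howie (p : ℕ) [Fact p.Prime] (h : HowieProperty G) : HowieModP p G :=
  fun m n w hw => h m n w (rank_rat_of_rank_zmod p _ hw)

/-- If there are infinitely many primes with the closure situation, then `G` has Howie's
property. -/
theorem howie_of_infinite_primes
    (hS : {p : ℕ | p.Prime ∧ ∃ (N : Subgroup G) (_ : N.Normal),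
      ResiduallyFinitePGroup p (G ⧸ N) ∧ HowieProperty N}.Infinite) : HowieProperty G := by
  intro m n w hw
  obtain ⟨D, hD, hDp⟩ := exists_det_of_rank_rat _ hw
  obtain ⟨p, ⟨hp, N, hNn, hR, hN⟩, hpD⟩ := hS.exists_notMem_finset D.natAbs.primeFactors
  have : Fact p.Prime := ⟨hp⟩
  apply howieModP_of_residually p N hR (howieModP_of_howie p hN) m n w
  apply hDp p
  intro hdvd
  apply hpD
  rw [Nat.mem_primeFactors]
  refine ⟨hp, Int.natCast_dvd.mp hdvd, by simpa using hD⟩

end Consequences

end Vale.Agent.Lib.P174
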