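import Vale.Agent.Lib.P174.Basic

namespace Vale.Agent.Lib.P174

open Monoid

universe u

/-- Transformations that intertwine the generators intertwine everything. -/
theorem perm_natural {G : Type u} [Group G] {n : ℕ} {X Y : Type*}
    (A : Coprod G (FreeGroup (Fin n)) →* Equiv.Perm X)
    (B : Coprod G (FreeGroup (Fin n)) →* Equiv.Perm Y) (Φ : X → Y)
    (hinl : ∀ g x, Φ (A (Coprod.inl g) x) = B (Coprod.inl g) (Φ x))
    (hof : ∀ j x, Φ (A (Coprod.inr (FreeGroup.of j)) x) = B (Coprod.inr (FreeGroup.of j)) (Φ x)) :
    ∀ u x, Φ (A u x) = B u (Φ x) := by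
  intro u
  induction u using coprod_induction with
  | hinl g => exact hinl g
  | hof j => exact hof j
  | hmul a b ha hb =>
    intro x
    simp only [map_mul, Equiv.Perm.mul_apply]
    rw [ha, hb]
  | hinv a ha =>
    intro x
    apply (B a).injective
    rw [← ha]
    simp

/-- A cocycle of `G` with values in `K` over the left translation action of `G` on `P`
given by `π`. -/
structure MonoCocycle {G P : Type*} [Group G] [Group P] (π : G →* P) (K : Type*) [Group K] where
  /-- the values of the cocycle -/
  c : G → P → K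
  c_one : ∀ y, c 1 y = 1
  c_mul : ∀ g h y, c (g * h) y = c g (π h * y) * c h y

/-- The trivial cocycle. -/
def MonoCocycle.triv {G P : Type*} [Group G] [Group P] (π : G →* P) (K : Type*) [Group K] :
    MonoCocycle π K where
  c := fun _ _ => 1
  c_one := fun _ => rfl
  c_mul := fun _ _ _ => by simp

section Monomial

variable {G P K : Type*} [Group G] [Group P] [Group K] (π : G →* P) (C : MonoCocycle π K)
  {n : ℕ} (e : Fin n → P → K) (q : Fin n → P)

/-- The action of `G` on `P × K` induced by a cocycle. -/
def sigmaEnd : G →* Function.End (P × K) where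
  toFun g := fun x => (π g * x.1, C.c g x.1 * x.2)
  map_one' := by
    funext x
    change (π 1 * x.1, C.c 1 x.1 * x.2) = x
    simp [C.c_one]
  map_mul' := by
    intro g h
    funext x
    change (π (g * h) * x.1, C.c (g * h) x.1 * x.2) =
      (π g * (π h * x.1), C.c g (π h * x.1) * (C.c h x.1 * x.2))
    simp [C.c_mul, mul_assoc]

/-- The monomial action as permutations. -/
def sigmaPerm : G →* Equiv.Perm (P × K) := (sigmaEnd π C).toHomPerm

@[simp] theorem sigmaPerm_apply (g : G) (x : P × K) :
    sigmaPerm π C g x = (π g * x.1, C.c g x.1 * x.2) := rfl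

/-- The permutation of `P × K` assigned to the unknown `x_j`. -/
def tauPerm (j : Fin n) : Equiv.Perm (P × K) where
  toFun x := (q j * x.1, e j x.1 * x.2)
  invFun x := ((q j)⁻¹ * x.1, (e j ((q j)⁻¹ * x.1))⁻¹ * x.2)
  left_inv x := by simp
  right_inv x := by simp

@[simp] theorem tauPerm_apply (j : Fin n) (x : P × K) :
    tauPerm e q j x = (q j * x.1, e j x.1 * x.2) := rfl

/-- The action of `G * F_n` on `P × K`. -/
noncomputable def Psi : Coprod G (FreeGroup (Fin n)) →* Equiv.Perm (P × K) :=
  Coprod.lift (sigmaPerm π C) (FreeGroup.lift (tauPerm e q))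

@[simp] theorem Psi_inl (g : G) (x : P × K) :
    Psi π C e q (Coprod.inl g) x = (π g * x.1, C.c g x.1 * x.2) := by
  simp [Psi]

@[simp] theorem Psi_of (j : Fin n) (x : P × K) :
    Psi π C e q (Coprod.inr (FreeGroup.of j)) x = (q j * x.1, e j x.1 * x.2) := by
  simp [Psi]

/-- The induced map `G * F_n → P`. -/
noncomputable def bar : Coprod G (FreeGroup (Fin n)) →* P :=
  Coprod.lift π (FreeGroup.lift q)

@[simp] theorem bar_inl (g : G) : bar π q (Coprod.inl g) = π g := by
  simp [bar]

@[simp] theorem bar_of (j : Fin n) : bar π q (Coprod.inr (FreeGroup.of j)) = q j := by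
  simp [bar]

theorem Psi_fst (u : Coprod G (FreeGroup (Fin n))) (x : P × K) :
    (Psi π C e q u x).1 = bar π q u * x.1 := by
  refine perm_natural (Psi π C e q) ((MulAction.toPermHom P P).comp (bar π q)) Prod.fst
    ?_ ?_ u x
  · intro g x
    simp
  · intro j x
    simp

theorem Psi_rightMul (s : K) (u : Coprod G (FreeGroup (Fin n))) (x : P × K) :
    (Psi π C e q u x).2 * s = (Psi π C e q u (x.1, x.2 * s)).2 := by
  have h := perm_natural (Psi π C e q) (Psi π C e q) (fun x => (x.1, x.2 * s))
    (by intro g x; simp [mul_assoc]) (by intro j x; simp [mul_assoc]) u x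
  exact congrArg Prod.snd h

/-- The monomial entry of `u` at `y`. -/
noncomputable def Ventry (u : Coprod G (FreeGroup (Fin n))) (y : P) : K :=
  (Psi π C e q u (y, 1)).2

theorem Psi_apply (u : Coprod G (FreeGroup (Fin n))) (y : P) (k : K) :
    Psi π C e q u (y, k) = (bar π q u * y, Ventry π C e q u y * k) := by
  have h := Psi_rightMul π C e q k u (y, 1)
  simp only [one_mul] at h
  apply Prod.ext
  · rw [Psi_fst]
  · rw [← h]
    rfl

/-- Compatible maps transfer the monomial entries. -/
theorem Ventry_transfer {P' K' : Type*} [Group P'] [Group K'] (π' : G →* P')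
    (C' : MonoCocycle π' K') (e' : Fin n → P' → K') (q' : Fin n → P') (f : P → P') (θ : K →* K')
    (hf1 : ∀ g y, f (π g * y) = π' g * f y) (hf2 : ∀ j y, f (q j * y) = q' j * f y)
    (hc : ∀ g y, θ (C.c g y) = C'.c g (f y)) (he : ∀ j y, θ (e j y) = e' j (f y))
    (u : Coprod G (FreeGroup (Fin n))) (y : P) :
    θ (Ventry π C e q u y) = Ventry π' C' e' q' u (f y) := by
  have h := perm_natural (Psi π C e q) (Psi π' C' e' q') (fun x => (f x.1, θ x.2))
    (by intro g x; simp [hf1, hc]) (by intro j x; simp [hf2, he]) u (y, 1)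
  have h2 := congrArg Prod.snd h
  simpa [Ventry] using h2

/-- A homomorphism `θ` of `K` for which all the data are scalars turns the monomial entry
into the value of the corresponding homomorphism of `G * F_n`. -/
theorem Ventry_scalar {K' : Type*} [Group K'] (θ : K →* K')
    (a : Coprod G (FreeGroup (Fin n)) →* K')
    (hc : ∀ g y, θ (C.c g y) = 1)
    (ha1 : ∀ g, a (Coprod.inl g) = 1)
    (ha2 : ∀ j y, θ (e j y) = a (Coprod.inr (FreeGroup.of j)))
    (u : Coprod G (FreeGroup (Fin n))) (y : P) :
    θ (Ventry π C e q u y) = a u := by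
  have h := perm_natural (Psi π C e q) ((MulAction.toPermHom K' K').comp a)
    (fun x => θ x.2)
    (by intro g x; simp [ha1, hc]) (by intro j x; simp [ha2]) u (y, 1)
  simpa [Ventry] using h

end Monomial

section Section

variable {G P : Type*} [Group G] [Group P] (π : G →* P)

/-- A section over the orbits of `G` acting on `P` by left translation. -/
theorem exists_section : ∃ ρ : P → G, ∀ g y, π (ρ (π g * y)) = π g * π (ρ y) := by
  let H := π.range
  let rep : P → P := fun y => (Quotient.mk (QuotientGroup.rightRel H) y).out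
  have hrep : ∀ y, y * (rep y)⁻¹ ∈ H := by
    intro y
    have h : (QuotientGroup.rightRel H) (rep y) y := Quotient.exact (Quotient.out_eq _)
    exact QuotientGroup.rightRel_apply.mp h
  have hsame : ∀ g y, rep (π g * y) = rep y := by
    intro g y
    have : Quotient.mk (QuotientGroup.rightRel H) (π g * y) =
        Quotient.mk (QuotientGroup.rightRel H) y := by
      apply Quotient.sound
      change (QuotientGroup.rightRel H) (π g * y) y
      rw [QuotientGroup.rightRel_apply]
      refine ⟨g⁻¹, ?_⟩
      simp
    simp only [rep, this]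
  choose ρ hρ using hrep
  refine ⟨ρ, fun g y => ?_⟩
  rw [hρ, hρ, hsame]
  group

/-- The cocycle of a section. -/
def sectionCocycle {K : Type*} [Group K] (ρ : P → G)
    (hρ : ∀ g y, π (ρ (π g * y)) = π g * π (ρ y)) (ν : π.ker →* K) : MonoCocycle π K where
  c g y := ν ⟨(ρ (π g * y))⁻¹ * g * ρ y, by
    rw [MonoidHom.mem_ker]
    simp [hρ]⟩
  c_one y := by
    have : (⟨(ρ (π 1 * y))⁻¹ * 1 * ρ y, by
        rw [MonoidHom.mem_ker]
        simp [hρ]⟩ : π.ker) = 1 := by
      apply Subtype.ext
      simp
    rw [this, map_one]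
  c_mul g h y := by
    refine Eq.trans ?_ (map_mul ν _ _)
    congr 1
    apply Subtype.ext
    simp [mul_assoc]

end Section

end Vale.Agent.Lib.P174
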