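import Vale.Agent.Lib.P174.PGroup
import Vale.Agent.Lib.P174.Core
import Vale.Agent.Lib.P174.Monomial

namespace Vale.Agent.Lib.P174

open Monoid

universe u

section Exponents

variable (p : ℕ) [Fact p.Prime] {G Q : Type*} [Group G] [Group Q] [DecidableEq Q]
  (π : G →* Q) {n : ℕ} (q : Fin n → Q)

/-- The generators of the abelian coefficient group that records exponents with position. -/
def echi (j : Fin n) (y : Q) : Multiplicative (Fin n × Q → ZMod p) :=
  Multiplicative.ofAdd (Pi.single (j, y) 1)

/-- The exponent with position of a word. -/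
noncomputable def Echi (u : Coprod G (FreeGroup (Fin n))) (y : Q) : Fin n × Q → ZMod p :=
  Multiplicative.toAdd (Ventry π (MonoCocycle.triv π _) (echi p) q u y)

/-- Translation of the position. -/
def tauS (s : Q) : Multiplicative (Fin n × Q → ZMod p) →* Multiplicative (Fin n × Q → ZMod p) where
  toFun f := Multiplicative.ofAdd fun c => Multiplicative.toAdd f (c.1, c.2 * s⁻¹)
  map_one' := rfl
  map_mul' _ _ := rfl

theorem tauS_echi (s : Q) (j : Fin n) (y : Q) : tauS p s (echi p j y) = echi p j (y * s) := by
  simp only [tauS, echi, MonoidHom.coe_mk, OneHom.coe_mk, toAdd_ofAdd]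
  apply congrArg Multiplicative.ofAdd
  funext c
  obtain ⟨c1, c2⟩ := c
  simp only [Pi.single_apply, Prod.mk.injEq]
  congr 1
  simp only [eq_iff_iff, and_congr_right_iff]
  intro _
  exact ⟨fun h => by rw [← h]; group, fun h => by rw [h]; group⟩

theorem Echi_translate (u : Coprod G (FreeGroup (Fin n))) (y s : Q) (j : Fin n) (t : Q) :
    Echi p π q u (y * s) (j, t) = Echi p π q u y (j, t * s⁻¹) := by
  have h := Ventry_transfer π (MonoCocycle.triv π _) (echi p) q π (MonoCocycle.triv π _)
    (echi p) q (fun y => y * s) (tauS p s) (fun g y => mul_assoc _ _ _)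
    (fun j y => mul_assoc _ _ _) (fun g y => map_one _) (tauS_echi p s) u y
  simp only [Echi]
  rw [← h]
  rfl

/-- Forgetting the position. -/
noncomputable def sumHom [Fintype Q] :
    Multiplicative (Fin n × Q → ZMod p) →* Multiplicative (Fin n → ZMod p) where
  toFun f := Multiplicative.ofAdd fun j => ∑ t, Multiplicative.toAdd f (j, t)
  map_one' := by
    apply congrArg Multiplicative.ofAdd
    funext j
    simp
  map_mul' a b := by
    apply congrArg Multiplicative.ofAdd
    funext j
    simp [Finset.sum_add_distrib]

/-- Reduction mod `p` of integer vectors. -/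
def castHom : Multiplicative (Fin n → ℤ) →* Multiplicative (Fin n → ZMod p) where
  toFun f := Multiplicative.ofAdd fun j => ((Multiplicative.toAdd f j : ℤ) : ZMod p)
  map_one' := by
    apply congrArg Multiplicative.ofAdd
    funext j
    simp
  map_mul' a b := by
    apply congrArg Multiplicative.ofAdd
    funext j
    simp

end Exponents

section ExponentsSum

variable (p : ℕ) [Fact p.Prime] {G : Type u} {Q : Type*} [Group G] [Group Q] [DecidableEq Q]
  (π : G →* Q) {n : ℕ} (q : Fin n → Q)

theorem Echi_sum [Fintype Q] (u : Coprod G (FreeGroup (Fin n))) (y : Q) (j : Fin n) :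
    ∑ t, Echi p π q u y (j, t) =
      ((Multiplicative.toAdd (expHom G n u) j : ℤ) : ZMod p) := by
  have h := Ventry_scalar π (MonoCocycle.triv π _) (echi p) q (sumHom p)
    ((castHom p).comp (expHom G n)) (fun g y => map_one _) (by intro g; simp)
    (by
      intro j y
      simp only [sumHom, echi, castHom, MonoidHom.coe_mk, OneHom.coe_mk, MonoidHom.comp_apply,
        expHom_of, toAdd_ofAdd]
      apply congrArg Multiplicative.ofAdd
      funext c
      simp only [Pi.single_apply, Prod.mk.injEq]
      by_cases hc : c = j
      · subst hc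
        simp
      · simp [hc]) u y
  have h2 := congrArg (fun f : Multiplicative (Fin n → ZMod p) => Multiplicative.toAdd f j) h
  simpa [sumHom, castHom, Echi] using h2

end ExponentsSum

section Big

variable (p : ℕ) [Fact p.Prime] {G P : Type u} {Q : Type*} [Group G] [Group P] [Group Q]
  [DecidableEq Q] (π : G →* P) (ρ : P → G) (hρ : ∀ g y, π (ρ (π g * y)) = π g * π (ρ y))
  {n n' : ℕ} (q : Fin n → P) (f₀ : P →* Q) (β : Fin n × Q ≃ Fin n')

/-- The generators of the big coefficient group, one for each unknown and position. -/
def eBig (j : Fin n) (y : P) : Coprod π.ker (FreeGroup (Fin n × P)) :=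
  Coprod.inr (FreeGroup.of (j, y))

/-- The monomial entries with coefficients in the big group. -/
noncomputable def vBig (u : Coprod G (FreeGroup (Fin n))) (y : P) :
    Coprod π.ker (FreeGroup (Fin n × P)) :=
  Ventry π (sectionCocycle π ρ hρ Coprod.inl) (eBig π) q u y

/-- Collapse of the generators of the big coefficient group to finitely many. -/
noncomputable def collapse :
    Coprod π.ker (FreeGroup (Fin n × P)) →* Coprod π.ker (FreeGroup (Fin n')) :=
  Coprod.lift Coprod.inl (FreeGroup.lift fun z => Coprod.inr (FreeGroup.of (β (z.1, f₀ z.2))))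

@[simp] theorem collapse_inl (a : π.ker) :
    collapse π f₀ β (Coprod.inl a) = Coprod.inl a := by
  simp [collapse]

/-- The map from the finite coefficient group to exponents with position. -/
noncomputable def thetaBig :
    Coprod π.ker (FreeGroup (Fin n')) →* Multiplicative (Fin n × Q → ZMod p) :=
  Coprod.lift 1 (FreeGroup.lift fun a => Multiplicative.ofAdd (Pi.single (β.symm a) 1))

theorem thetaBig_vBig (u : Coprod G (FreeGroup (Fin n))) (y : P) :
    thetaBig p π β (collapse π f₀ β (vBig π ρ hρ q u y)) =
      Echi p (f₀.comp π) (fun j => f₀ (q j)) u (f₀ y) := by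
  have h := Ventry_transfer π (sectionCocycle π ρ hρ Coprod.inl) (eBig π) q (f₀.comp π)
    (MonoCocycle.triv (f₀.comp π) _) (echi p) (fun j => f₀ (q j)) f₀
    ((thetaBig p π β).comp (collapse π f₀ β))
    (fun g y => by simp) (fun j y => by simp)
    (fun g y => by
      simp [sectionCocycle, MonoCocycle.triv, thetaBig])
    (fun j y => by
      simp [eBig, collapse, thetaBig, echi]) u y
  exact h

theorem expHom_thetaBig (z : Coprod π.ker (FreeGroup (Fin n'))) (c : Fin n') :
    ((Multiplicative.toAdd (expHom π.ker n' z) c : ℤ) : ZMod p) =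
      Multiplicative.toAdd (thetaBig p π β z) (β.symm c) := by
  induction z using coprod_induction with
  | hinl g => simp [thetaBig]
  | hof a =>
    simp only [expHom_of, thetaBig, Coprod.lift_apply_inr, FreeGroup.lift_apply_of, toAdd_ofAdd,
      Pi.single_apply, EmbeddingLike.apply_eq_iff_eq]
    by_cases hc : c = a
    · simp [hc]
    · simp [hc]
  | hmul a b ha hb =>
    simp only [map_mul, toAdd_mul, Pi.add_apply, Int.cast_add, ha, hb]
  | hinv a ha =>
    simp only [map_inv, toAdd_inv, Pi.neg_apply, Int.cast_neg, ha]

/-- The finite system obtained from finitely many rows has full row rank mod `p`. -/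
theorem big_rank [Fintype Q] (hQ : IsPGroup p Q) {m m' : ℕ}
    (w : Fin m → Coprod G (FreeGroup (Fin n)))
    (hrank : ((expMatrix w).map (Int.cast : ℤ → ZMod p)).rank = m)
    (F : Finset (Fin m × P))
    (hinj : Set.InjOn (fun x : Fin m × P => (x.1, f₀ x.2)) (F : Set (Fin m × P)))
    (α : F ≃ Fin m') :
    ((expMatrix (fun r : Fin m' => collapse π f₀ β
        (vBig π ρ hρ q (w (α.symm r).1.1) (α.symm r).1.2))).map
          (Int.cast : ℤ → ZMod p)).rank = m' := by
  classical
  have hli : LinearIndependent (ZMod p) ((expMatrix (fun r : Fin m' => collapse π f₀ β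
        (vBig π ρ hρ q (w (α.symm r).1.1) (α.symm r).1.2))).map
          (Int.cast : ℤ → ZMod p)).row := by
    rw [Fintype.linearIndependent_iff]
    intro g hg
    -- the relation among the rows, in terms of exponents with position
    have hrel : ∀ c : Fin n × Q, ∑ x : F, g (α x) *
        Echi p (f₀.comp π) (fun j => f₀ (q j)) (w x.1.1) (f₀ x.1.2) c = 0 := by
      intro c
      have h1 := congrFun hg (β c)
      simp only [Finset.sum_apply, Pi.smul_apply, smul_eq_mul, Pi.zero_apply] at h1
      rw [← Equiv.sum_comp α] at h1
      rw [← h1]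
      refine Finset.sum_congr rfl fun x _ => ?_
      congr 1
      simp only [Matrix.row, Matrix.map_apply, expMatrix, Equiv.symm_apply_apply]
      rw [expHom_thetaBig p π β, thetaBig_vBig, Equiv.symm_apply_apply]
      rfl
    have hl := twisted_rows_indep p hQ
      (fun i y => Echi p (f₀.comp π) (fun j => f₀ (q j)) (w i) y)
      ((expMatrix w).map (Int.cast : ℤ → ZMod p))
      (fun i y s j t => Echi_translate p _ _ (w i) y s j t)
      (fun i y j => by
        simpa [expMatrix] using Echi_sum p (f₀.comp π) (fun j => f₀ (q j)) (w i) y j)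
      hrank
      (fun z => ∑ x : F, if (x.1.1, f₀ x.1.2) = z then g (α x) else 0)
      (by
        intro c
        simp only [Finset.sum_mul]
        rw [Finset.sum_comm]
        refine Eq.trans ?_ (hrel c)
        refine Finset.sum_congr rfl fun x _ => ?_
        rw [Finset.sum_eq_single (x.1.1, f₀ x.1.2)]
        · simp
        · intro b _ hb
          rw [if_neg (fun h => hb h.symm), zero_mul]
        · intro h
          exact absurd (Finset.mem_univ _) h)
    intro r
    have h2 := congrFun hl ((α.symm r).1.1, f₀ (α.symm r).1.2)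
    simp only [Pi.zero_apply] at h2
    rw [Finset.sum_eq_single (α.symm r)] at h2
    · simpa using h2
    · intro b _ hb
      rw [if_neg]
      intro h
      apply hb
      apply Subtype.ext
      exact hinj b.2 (α.symm r).2 h
    · intro h
      exact absurd (Finset.mem_univ _) h
  have h := hli.rank_matrix
  simpa using h

end Big

/-- Normal closures are finitary. -/
theorem exists_finset_of_mem_normalClosure {Γ ι : Type*} [Group Γ] (v : ι → Γ) {z : Γ}
    (hz : z ∈ Subgroup.normalClosure (Set.range v)) :
    ∃ F : Finset ι, z ∈ Subgroup.normalClosure (v '' (F : Set ι)) := by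
  classical
  have hmono : ∀ {F F' : Finset ι}, F ⊆ F' →
      Subgroup.normalClosure (v '' (F : Set ι)) ≤ Subgroup.normalClosure (v '' (F' : Set ι)) := by
    intro F F' h
    apply Subgroup.normalClosure_mono
    exact Set.image_mono (by exact_mod_cast h)
  unfold Subgroup.normalClosure at hz
  induction hz using Subgroup.closure_induction with
  | mem x hx =>
    obtain ⟨a, ⟨i, rfl⟩, hconj⟩ := Group.mem_conjugatesOfSet_iff.mp hx
    refine ⟨{i}, ?_⟩
    apply Subgroup.conjugatesOfSet_subset_normalClosure
    refine Group.mem_conjugatesOfSet_iff.mpr ⟨v i, ?_, hconj⟩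
    simp
  | one => exact ⟨∅, Subgroup.one_mem _⟩
  | mul a b _ _ ha hb =>
    obtain ⟨F, hF⟩ := ha
    obtain ⟨F', hF'⟩ := hb
    exact ⟨F ∪ F', Subgroup.mul_mem _ (hmono Finset.subset_union_left hF)
      (hmono Finset.subset_union_right hF')⟩
  | inv a _ ha =>
    obtain ⟨F, hF⟩ := ha
    exact ⟨F, Subgroup.inv_mem _ hF⟩

end Vale.Agent.Lib.P174
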