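import Vale.Agent.Lib.P174.Basic

namespace Vale.Agent.Lib.P174

open Monoid

universe u

/-- Evaluation of a system over `P` at the point `q`. -/
noncomputable def evalAt {P : Type u} [Group P] {n : ℕ} (q : Fin n → P) :
    Coprod P (FreeGroup (Fin n)) →* P :=
  Coprod.lift (MonoidHom.id P) (FreeGroup.lift q)

@[simp] theorem evalAt_inl {P : Type u} [Group P] {n : ℕ} (q : Fin n → P) (g : P) :
    evalAt q (Coprod.inl g) = g := by
  simp [evalAt]

@[simp] theorem evalAt_of {P : Type u} [Group P] {n : ℕ} (q : Fin n → P) (j : Fin n) :
    evalAt q (Coprod.inr (FreeGroup.of j)) = q j := by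
  simp [evalAt]

/-- Full row rank gives solvability of all linear systems. -/
theorem exists_mulVec_eq_of_rank {F : Type*} [Field F] {m n : ℕ}
    (A : Matrix (Fin m) (Fin n) F) (h : A.rank = m) (b : Fin m → F) :
    ∃ y, A.mulVec y = b := by
  have h1 : LinearMap.range A.mulVecLin = ⊤ := by
    apply Submodule.eq_top_of_finrank_eq
    rw [Module.finrank_fin_fun]
    exact h
  have h2 : b ∈ LinearMap.range A.mulVecLin := by
    rw [h1]
    exact Submodule.mem_top
  obtain ⟨y, hy⟩ := h2
  exact ⟨y, hy⟩

/-- Effect of a central shift of the point on the value of a word. -/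
theorem evalAt_shift {P : Type u} [Group P] {n : ℕ} (q : Fin n → P) (z : P)
    (hz : ∀ g : P, g * z = z * g) (y : Fin n → ℤ) (u : Coprod P (FreeGroup (Fin n))) :
    evalAt (fun j => q j * z ^ y j) u =
      evalAt q u * z ^ (∑ j, Multiplicative.toAdd (expHom P n u) j * y j) := by
  have hcomm : ∀ (g : P) (k : ℤ), g * z ^ k = z ^ k * g := by
    intro g k
    have : Commute g z := hz g
    exact (this.zpow_right k).eq
  induction u using coprod_induction with
  | hinl g => simp
  | hof j =>
    simp [Pi.single_apply]
  | hmul a b ha hb =>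
    rw [map_mul, map_mul, ha, hb, map_mul, toAdd_mul]
    simp only [Pi.add_apply, add_mul, Finset.sum_add_distrib, zpow_add]
    have := hcomm (evalAt q b) (∑ j, Multiplicative.toAdd (expHom P n a) j * y j)
    calc _ = evalAt q a * (z ^ (∑ j, Multiplicative.toAdd (expHom P n a) j * y j) * evalAt q b)
          * z ^ (∑ j, Multiplicative.toAdd (expHom P n b) j * y j) := by group
      _ = _ := by rw [← this]; group
  | hinv a ha =>
    rw [map_inv, map_inv, ha, map_inv, toAdd_inv]
    simp only [Pi.neg_apply, neg_mul, Finset.sum_neg_distrib, zpow_neg, mul_inv_rev]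
    rw [← zpow_neg]
    exact (hcomm _ _).symm

/-- Finite `p`-groups: a system with full row rank mod `p` has a solution in the group itself. -/
theorem pgroup_solve (p : ℕ) [Fact p.Prime] {m n : ℕ} (A : Matrix (Fin m) (Fin n) ℤ)
    (hA : (A.map (Int.cast : ℤ → ZMod p)).rank = m) :
    ∀ (k : ℕ) (P : Type u) [Group P] [Finite P], Nat.card P = k → IsPGroup p P →
      ∀ w : Fin m → Coprod P (FreeGroup (Fin n)), expMatrix w = A →
        ∃ q : Fin n → P, ∀ i, evalAt q (w i) = 1 := by
  intro k
  induction k using Nat.strong_induction_on with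
  | _ k ih =>
    intro P _ _ hk hP w hw
    by_cases hone : Nat.card P = 1
    · have : Subsingleton P := (Nat.card_eq_one_iff_unique.mp hone).1
      exact ⟨fun _ => 1, fun i => Subsingleton.elim _ _⟩
    · have hnt : Nontrivial P := by
        rw [← Finite.one_lt_card_iff_nontrivial]
        have : 0 < Nat.card P := Nat.card_pos
        omega
      -- a central element of order `p`
      obtain ⟨z, hzc, hz1, hzp⟩ : ∃ z : P, (∀ g : P, g * z = z * g) ∧ z ≠ 1 ∧ z ^ p = 1 := by
        have hc := hP.center_nontrivial
        obtain ⟨z₀, hz₀⟩ := exists_ne (1 : Subgroup.center P)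
        obtain ⟨t, ht⟩ := (IsPGroup.iff_orderOf.mp hP) (z₀ : P)
        have hne : (z₀ : P) ≠ 1 := fun h => hz₀ (Subtype.ext h)
        have ht0 : t ≠ 0 := by
          rintro rfl
          apply hne
          have h1 : orderOf (z₀ : P) = 1 := by simpa using ht
          exact orderOf_eq_one_iff.mp h1
        obtain ⟨s, rfl⟩ := Nat.exists_eq_succ_of_ne_zero ht0
        refine ⟨(z₀ : P) ^ p ^ s, ?_, ?_, ?_⟩
        · intro g
          have : Commute g (z₀ : P) := Subgroup.mem_center_iff.mp z₀.2 g
          exact (this.pow_right _).eq
        · apply pow_ne_one_of_lt_orderOf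
          · exact (pow_pos (Fact.out : p.Prime).pos s).ne'
          · rw [ht, pow_succ]
            have h2 := (Fact.out : p.Prime).one_lt
            have h3 := pow_pos (Fact.out : p.Prime).pos s
            nlinarith
        · rw [← pow_mul, ← pow_succ, ← ht, pow_orderOf_eq_one]
      -- pass to the quotient by the central subgroup generated by `z`
      let C : Subgroup P := Subgroup.zpowers z
      have hCn : C.Normal := by
        refine ⟨fun a ha g => ?_⟩
        obtain ⟨t, rfl⟩ := Subgroup.mem_zpowers_iff.mp ha
        have hcm : ∀ k : ℤ, g * z ^ k = z ^ k * g := fun k => ((show Commute g z from hzc g).zpow_right k).eq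
        have : g * z ^ t * g⁻¹ = z ^ t := by rw [hcm]; group
        rw [this]
        exact Subgroup.zpow_mem_zpowers z t
      have hcardC : 1 < Nat.card C := by
        rw [Finite.one_lt_card_iff_nontrivial]
        exact (Subgroup.nontrivial_iff_ne_bot C).mpr (by
          intro h
          exact hz1 (Subgroup.zpowers_eq_bot.mp h))
      have hcardQ : Nat.card (P ⧸ C) < k := by
        have h := Subgroup.card_eq_card_quotient_mul_card_subgroup C
        have hpos : 0 < Nat.card (P ⧸ C) := Nat.card_pos
        rw [← hk, h]
        nlinarith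
      obtain ⟨qb, hqb⟩ := ih _ hcardQ (P ⧸ C) rfl (hP.to_quotient C)
        (fun i => Coprod.map (QuotientGroup.mk' C) (MonoidHom.id _) (w i))
        (by rw [expMatrix_map, hw])
      -- lift to `P`
      have hsurj := QuotientGroup.mk'_surjective C
      let q : Fin n → P := fun j => Function.surjInv hsurj (qb j)
      have hq : ∀ j, QuotientGroup.mk' C (q j) = qb j := fun j => Function.surjInv_eq hsurj (qb j)
      have hmap : ∀ u : Coprod P (FreeGroup (Fin n)), QuotientGroup.mk' C (evalAt q u) =
          evalAt qb (Coprod.map (QuotientGroup.mk' C) (MonoidHom.id _) u) := by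
        intro u
        induction u using coprod_induction with
        | hinl g => simp
        | hof j => simp [hq]
        | hmul a b ha hb => simp only [map_mul, ha, hb]
        | hinv a ha => simp only [map_inv, ha]
      have hmem : ∀ i, evalAt q (w i) ∈ C := by
        intro i
        have h1 := hmap (w i)
        rw [hqb i] at h1
        rw [← QuotientGroup.ker_mk' C]
        exact h1
      choose b hb using fun i => Subgroup.mem_zpowers_iff.mp (hmem i)
      obtain ⟨yb, hyb⟩ := exists_mulVec_eq_of_rank _ hA (fun i => -(b i : ZMod p))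
      let y : Fin n → ℤ := fun j => ((yb j).val : ℤ)
      have hy : ∀ j, ((y j : ℤ) : ZMod p) = yb j := by
        intro j
        simp [y]
      refine ⟨fun j => q j * z ^ y j, fun i => ?_⟩
      rw [evalAt_shift q z hzc y, ← hb i, ← zpow_add]
      have hdvd : (p : ℤ) ∣ b i + ∑ j, Multiplicative.toAdd (expHom P n (w i)) j * y j := by
        rw [← ZMod.intCast_zmod_eq_zero_iff_dvd]
        have h1 := congrFun hyb i
        simp only [Matrix.mulVec, dotProduct, Matrix.map_apply] at h1
        push_cast
        have h2 : ∀ j, ((Multiplicative.toAdd (expHom P n (w i)) j : ℤ) : ZMod p) =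
            ((A i j : ℤ) : ZMod p) := by
          intro j
          rw [← hw]
          rfl
        simp only [h2, hy]
        rw [h1]
        ring
      obtain ⟨c, hc⟩ := hdvd
      rw [hc, zpow_mul]
      have : z ^ (p : ℤ) = 1 := by
        rw [zpow_natCast]
        exact hzp
      rw [this, one_zpow]

end Vale.Agent.Lib.P174
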